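import Vale.Agent.P011.D4X.H657.Jq
import Mathlib.Analysis.Complex.Basic

/-!
Block D4Z (helper64): the real structure of the octonion algebra over `ℂ` at a complex place of
indefinite type.
-/

open Complex

set_option linter.unusedSectionVars false

namespace Vale.Agent.P011.D4Z

open Vale.Agent.P011.MPQ Vale.Agent.P011.D4 Vale.Agent.P011.D4.Oct Vale.Agent.P011.D4X

/-- The diagonal form of signature `(2, 6)`. -/
def eta8 {R : Type} [CommRing R] (x : Fin 8 → R) : R :=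
  x 0 ^ 2 + x 1 ^ 2 - x 2 ^ 2 - x 3 ^ 2 - x 4 ^ 2 - x 5 ^ 2 - x 6 ^ 2 - x 7 ^ 2

variable {k : Type} [Field k] [Algebra k ℂ]

/-- The octonion with the given coordinates. -/
noncomputable def Psi (a b c : kˣ) (α : ℂ) (R P β γ : ℝ) (x : Fin 8 → ℂ) : OctL ℂ a b c :=
  ⟨mk4 (up ℂ a) (up ℂ b) α (R * (x 0 - I * x 1)) ((x 0 + I * x 1) / R)
      (-(x 2 - I * x 3) / (P * β)) (P * (x 2 + I * x 3) / β),
    mk4 (up ℂ a) (up ℂ b) α (-(x 4 - I * x 5) / (P * γ)) (P * (x 4 + I * x 5) / γ)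
      (-(P * (x 6 - I * x 7)) / (β * γ)) ((x 6 + I * x 7) / (P * β * γ))⟩

variable {a b c : kˣ} {α : ℂ} {R P β γ : ℝ}

theorem Psi_add (x y : Fin 8 → ℂ) :
    Psi a b c α R P β γ (x + y) = Psi a b c α R P β γ x + Psi a b c α R P β γ y := by
  apply Oct.ext
  · change _ = (Psi a b c α R P β γ x).fst + (Psi a b c α R P β γ y).fst
    simp only [Psi, add_mk4, Pi.add_apply]
    congr 1 <;> ring
  · change _ = (Psi a b c α R P β γ x).snd + (Psi a b c α R P β γ y).snd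
    simp only [Psi, add_mk4, Pi.add_apply]
    congr 1 <;> ring

theorem Psi_smul (t : ℂ) (x : Fin 8 → ℂ) :
    Psi a b c α R P β γ (t • x) = t • Psi a b c α R P β γ x := by
  apply Oct.ext
  · change _ = t • (Psi a b c α R P β γ x).fst
    simp only [Psi, smul_mk4, Pi.smul_apply, smul_eq_mul]
    congr 1 <;> ring
  · change _ = t • (Psi a b c α R P β γ x).snd
    simp only [Psi, smul_mk4, Pi.smul_apply, smul_eq_mul]
    congr 1 <;> ring

/-- The coordinates of an octonion. -/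
noncomputable def Psi' (α : ℂ) (R P β γ : ℝ) (x : OctL ℂ a b c) : Fin 8 → ℂ :=
  ![(R * (x.fst.re - x.fst.imI * α) + (x.fst.re + x.fst.imI * α) / R) / 2,
    (R * (x.fst.re - x.fst.imI * α) - (x.fst.re + x.fst.imI * α) / R) / (2 * I),
    (β / P * (x.fst.imJ - x.fst.imK * α) - P * β * (x.fst.imJ + x.fst.imK * α)) / 2,
    (β / P * (x.fst.imJ - x.fst.imK * α) + P * β * (x.fst.imJ + x.fst.imK * α)) / (2 * I),
    (γ / P * (x.snd.re - x.snd.imI * α) - P * γ * (x.snd.re + x.snd.imI * α)) / 2,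
    (γ / P * (x.snd.re - x.snd.imI * α) + P * γ * (x.snd.re + x.snd.imI * α)) / (2 * I),
    (P * β * γ * (x.snd.imJ - x.snd.imK * α) - β * γ / P * (x.snd.imJ + x.snd.imK * α)) / 2,
    (P * β * γ * (x.snd.imJ - x.snd.imK * α) + β * γ / P * (x.snd.imJ + x.snd.imK * α)) / (2 * I)]

/-- The hypotheses on the parameters. -/
structure RP (a b c : kˣ) (α : ℂ) (R P β γ : ℝ) : Prop where
  α2 : α * α = algebraMap k ℂ a
  hα : starRingEnd ℂ α = -α
  R0 : 0 < R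
  P0 : 0 < P
  β0 : 0 < β
  γ0 : 0 < γ
  hb : algebraMap k ℂ b = ((-β ^ 2 : ℝ) : ℂ)
  hc : algebraMap k ℂ c = ((-γ ^ 2 : ℝ) : ℂ)

theorem RP.Psi_Psi' (h : RP a b c α R P β γ) (x : OctL ℂ a b c) :
    Psi a b c α R P β γ (Psi' α R P β γ x) = x := by
  have h0 : α * α = ((up ℂ a : ℂˣ) : ℂ) := h.α2
  have hR : (R : ℂ) ≠ 0 := by exact_mod_cast h.R0.ne'
  have hP : (P : ℂ) ≠ 0 := by exact_mod_cast h.P0.ne'
  have hβ : (β : ℂ) ≠ 0 := by exact_mod_cast h.β0.ne'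
  have hγ : (γ : ℂ) ≠ 0 := by exact_mod_cast h.γ0.ne'
  have hI : (I : ℂ) ≠ 0 := I_ne_zero
  apply Oct.ext
  · rw [mk4_surj h0 x.fst]
    simp only [Psi, Psi', Matrix.cons_val]
    congr 1 <;> field_simp <;> ring
  · rw [mk4_surj h0 x.snd]
    simp only [Psi, Psi', Matrix.cons_val]
    congr 1 <;> field_simp <;> ring


theorem RP.Psi'_Psi (h : RP a b c α R P β γ) (x : Fin 8 → ℂ) :
    Psi' α R P β γ (Psi a b c α R P β γ x) = x := by
  have h0 : α * α = ((up ℂ a : ℂˣ) : ℂ) := h.α2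
  have hR : (R : ℂ) ≠ 0 := by exact_mod_cast h.R0.ne'
  have hP : (P : ℂ) ≠ 0 := by exact_mod_cast h.P0.ne'
  have hβ : (β : ℂ) ≠ 0 := by exact_mod_cast h.β0.ne'
  have hγ : (γ : ℂ) ≠ 0 := by exact_mod_cast h.γ0.ne'
  have hα : α ≠ 0 := al_ne h0
  have hI : (I : ℂ) ≠ 0 := I_ne_zero
  funext i
  fin_cases i <;> simp only [Psi, Psi', mk4, Fin.zero_eta, Fin.mk_one, Fin.reduceFinMk,
    Matrix.cons_val] <;> field_simp <;> ring

theorem RP.norm_Psi (h : RP a b c α R P β γ) (x : Fin 8 → ℂ) :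
    Oct.norm (Psi a b c α R P β γ x) = eta8 x := by
  have h0 : α * α = ((up ℂ a : ℂˣ) : ℂ) := h.α2
  have hR : (R : ℂ) ≠ 0 := by exact_mod_cast h.R0.ne'
  have hP : (P : ℂ) ≠ 0 := by exact_mod_cast h.P0.ne'
  have hβ : (β : ℂ) ≠ 0 := by exact_mod_cast h.β0.ne'
  have hγ : (γ : ℂ) ≠ 0 := by exact_mod_cast h.γ0.ne'
  have hI : I * I = -1 := I_mul_I
  have e1 : ((up ℂ b : ℂˣ) : ℂ) = -(β : ℂ) ^ 2 := by
    have := h.hb
    push_cast at this
    exact this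
  have e2 : ((up ℂ c : ℂˣ) : ℂ) = -(γ : ℂ) ^ 2 := by
    have := h.hc
    push_cast at this
    exact this
  change nrd (Psi a b c α R P β γ x).fst - ((up ℂ c : ℂˣ) : ℂ) *
    nrd (Psi a b c α R P β γ x).snd = _
  simp only [Psi]
  rw [nrd_mk4 h0, nrd_mk4 h0, e1, e2, eta8]
  field_simp
  linear_combination (-(x 1) ^ 2 + (x 3) ^ 2 + (x 5) ^ 2 + (x 7) ^ 2) * hI

/-- The semilinear map in coordinates. -/
theorem RP.Jq_Psi (h : RP a b c α R P β γ) {σ : ℂ ≃ₐ[k] ℂ} (hσ : ∀ x, σ x = starRingEnd ℂ x)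
    (x : Fin 8 → ℂ) :
    Jq σ α ((-(R ^ 2) / P ^ 2 : ℝ) : ℂ) ((P ^ 4 : ℝ) : ℂ) (Psi a b c α R P β γ x) =
      ((R ^ 2 : ℝ) : ℂ) • Psi a b c α R P β γ (fun i => starRingEnd ℂ (x i)) := by
  have h0 : α * α = ((up ℂ a : ℂˣ) : ℂ) := h.α2
  have hR : (R : ℂ) ≠ 0 := by exact_mod_cast h.R0.ne'
  have hP : (P : ℂ) ≠ 0 := by exact_mod_cast h.P0.ne'
  have hβ : (β : ℂ) ≠ 0 := by exact_mod_cast h.β0.ne'
  have hγ : (γ : ℂ) ≠ 0 := by exact_mod_cast h.γ0.ne'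
  have hσα : σ α = -α := by rw [hσ, h.hα]
  apply Oct.ext
  · change mq a b α _ * qmap σ (Psi a b c α R P β γ x).fst * mq a b α _ =
      _ • (Psi a b c α R P β γ _).fst
    simp only [Psi]
    rw [mq_eq, mq_eq, qmap_mk4' hσα, mk4_mul h0, mk4_mul h0, smul_mk4]
    simp only [hσ, map_div₀, map_mul, map_neg, map_add, map_sub, conj_ofReal, conj_I]
    push_cast
    congr 1 <;> field_simp <;> ring
  · change qmap σ (Psi a b c α R P β γ x).snd * (mq a b α _ * star (mq a b α _)) =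
      _ • (Psi a b c α R P β γ _).snd
    simp only [Psi]
    rw [star_mq, mq_eq, qmap_mk4' hσα, mk4_mul h0, mk4_mul h0, smul_mk4]
    simp only [hσ, map_div₀, map_mul, map_neg, map_add, map_sub, conj_ofReal, conj_I]
    push_cast
    congr 1 <;> field_simp <;> ring

end Vale.Agent.P011.D4Z
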