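import Vale.Agent.P011.D4Z.Defs
import Vale.Agent.P011.D4Z.H64.Real
import Mathlib.NumberTheory.NumberField.InfinitePlace.Basic

/-!
Block D4Z (helper64): a basis of the real form at a complex place of indefinite type.
-/

open Complex

set_option linter.unusedSectionVars false

namespace Vale.Agent.P011.D4Z

open Vale.Agent.P011.MPQ Vale.Agent.P011.D4 Vale.Agent.P011.D4.Oct Vale.Agent.P011.D4X

section

variable {k : Type} [Field k] [Algebra k ℂ] {a b c : kˣ} {α : ℂ} {R P β γ : ℝ}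

/-- The octonion with the given coordinates, as a linear map. -/
noncomputable def PsiL (a b c : kˣ) (α : ℂ) (R P β γ : ℝ) : (Fin 8 → ℂ) →ₗ[ℂ] OctL ℂ a b c where
  toFun := Psi a b c α R P β γ
  map_add' := Psi_add
  map_smul' := Psi_smul

/-- The basis. -/
noncomputable def eb (a b c : kˣ) (α : ℂ) (R P β γ : ℝ) (i : Fin 8) : OctL ℂ a b c :=
  Psi a b c α R P β γ fun j => if i = j then 1 else 0

theorem Psi_eq_sum (v : Fin 8 → ℂ) :
    Psi a b c α R P β γ v = ∑ i, v i • eb a b c α R P β γ i :=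
  LinearMap.pi_apply_eq_sum_univ (PsiL a b c α R P β γ) v

theorem RP.bil_eb (h : RP a b c α R P β γ) (i j : Fin 8) :
    Oct.bil (eb a b c α R P β γ i) (eb a b c α R P β γ j) =
      if i = j then (if i = 0 ∨ i = 1 then 2 else -2) else 0 := by
  rw [Oct.bil, eb, eb, ← Psi_add, h.norm_Psi, h.norm_Psi, h.norm_Psi]
  fin_cases i <;> fin_cases j <;> simp [eta8] <;> norm_num

theorem eb_snd {i : Fin 8} (hi : i ∈ ({0, 1, 2, 3} : Finset (Fin 8))) :
    (eb a b c α R P β γ i).snd = 0 := by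
  have h1 : (eb a b c α R P β γ i).snd = mk4 (up ℂ a) (up ℂ b) α 0 0 0 0 := by
    simp only [Finset.mem_insert, Finset.mem_singleton] at hi
    rcases hi with rfl | rfl | rfl | rfl <;> simp [eb, Psi]
  rw [h1, mk4_zero]

theorem eb_fst {i : Fin 8} (hi : i ∈ ({4, 5, 6, 7} : Finset (Fin 8))) :
    (eb a b c α R P β γ i).fst = 0 := by
  have h1 : (eb a b c α R P β γ i).fst = mk4 (up ℂ a) (up ℂ b) α 0 0 0 0 := by
    simp only [Finset.mem_insert, Finset.mem_singleton] at hi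
    rcases hi with rfl | rfl | rfl | rfl <;> simp [eb, Psi]
  rw [h1, mk4_zero]

theorem eb_mid {i : Fin 8} (hi : i ∈ ({2, 3, 4, 5} : Finset (Fin 8))) :
    (eb a b c α R P β γ i).fst.re = 0 ∧ (eb a b c α R P β γ i).fst.imI = 0 ∧
      (eb a b c α R P β γ i).snd.imJ = 0 ∧ (eb a b c α R P β γ i).snd.imK = 0 := by
  simp only [Finset.mem_insert, Finset.mem_singleton] at hi
  rcases hi with rfl | rfl | rfl | rfl <;> simp [eb, Psi, mk4]

/-- The parameters. -/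
theorem exists_RP {α : ℂ} (hα2 : α * α = algebraMap k ℂ a) (hα : starRingEnd ℂ α = -α)
    {b0 c0 q0 q1 : ℝ} (hb : algebraMap k ℂ b = (b0 : ℂ)) (hc : algebraMap k ℂ c = (c0 : ℂ))
    (hb0 : b0 < 0) (hc0 : c0 < 0) (hq0 : q0 < 0) (hq1 : 0 < q1) :
    ∃ R P β γ : ℝ, RP a b c α R P β γ ∧ -(R ^ 2) / P ^ 2 = q0 ∧ P ^ 4 = q1 := by
  have hP : 0 < Real.sqrt (Real.sqrt q1) := Real.sqrt_pos.2 (Real.sqrt_pos.2 hq1)
  have hQ : 0 < Real.sqrt (-q0) := Real.sqrt_pos.2 (neg_pos.2 hq0)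
  have e1 : Real.sqrt (-q0) ^ 2 = -q0 := Real.sq_sqrt (neg_pos.2 hq0).le
  have e2 : Real.sqrt (Real.sqrt q1) ^ 4 = q1 := by
    have h1 : Real.sqrt (Real.sqrt q1) ^ 2 = Real.sqrt q1 := Real.sq_sqrt (Real.sqrt_nonneg _)
    calc Real.sqrt (Real.sqrt q1) ^ 4 = (Real.sqrt (Real.sqrt q1) ^ 2) ^ 2 := by ring
      _ = q1 := by rw [h1, Real.sq_sqrt hq1.le]
  refine ⟨Real.sqrt (Real.sqrt q1) * Real.sqrt (-q0), Real.sqrt (Real.sqrt q1),
    Real.sqrt (-b0), Real.sqrt (-c0), ⟨hα2, hα, mul_pos hP hQ, hP,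
      Real.sqrt_pos.2 (neg_pos.2 hb0), Real.sqrt_pos.2 (neg_pos.2 hc0), ?_, ?_⟩, ?_, e2⟩
  · rw [Real.sq_sqrt (neg_pos.2 hb0).le, neg_neg, hb]
  · rw [Real.sq_sqrt (neg_pos.2 hc0).le, neg_neg, hc]
  · rw [mul_pow, e1]
    field_simp

end

section main

variable {k L E : Type} [Field k] [Field L] [Field E] [Algebra k L] [Algebra k E] [Algebra L E]
  [IsScalarTower k L E] {ρ σ : E ≃ₐ[k] E} {ρL : L ≃ₐ[k] L} {α : E}
  {a b c : kˣ} {q : Lˣ} (H : Hy ρ σ ρL α a b c q)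

include H

/-- T4: real coordinates of `VR`. -/
theorem exists_basis [Algebra k ℂ] (W : E →ₐ[k] ℂ) (hW : (W : E →+* ℂ) ∈ Bd ρ σ q)
    (hq : (W (algebraMap L E q)).re < 0) (hq' : 0 < (W (ρ (algebraMap L E q))).re)
    (hc : ∀ w : L →+* ℝ, w (algebraMap k L a) < 0 →
      w (algebraMap k L b) < 0 ∧ w (algebraMap k L c) < 0) :
    ∃ e : Fin 8 → OctL ℂ a b c, (∀ i, e i ∈ VR W ρ α q) ∧
      (∀ i j, Oct.bil (e i) (e j) =
        if i = j then (if i = 0 ∨ i = 1 then 2 else -2) else 0) ∧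
      (∀ y ∈ VR W ρ α q, ∃ v : Fin 8 → ℝ, y = ∑ i, (v i : ℂ) • e i) ∧
      (∀ y : OctL ℂ a b c, ∃ v : Fin 8 → ℂ, y = ∑ i, v i • e i) ∧
      (∀ i, i ∈ ({0, 1, 2, 3} : Finset (Fin 8)) → (e i).snd = 0) ∧
      (∀ i, i ∈ ({4, 5, 6, 7} : Finset (Fin 8)) → (e i).fst = 0) ∧
      (∀ i, i ∈ ({2, 3, 4, 5} : Finset (Fin 8)) → (e i).fst.re = 0 ∧ (e i).fst.imI = 0 ∧
        (e i).snd.imJ = 0 ∧ (e i).snd.imK = 0) := by
  have hc1 : ∀ x : E, W (σ x) = starRingEnd ℂ (W x) := hW.1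
  -- the restriction to `L`
  have hreal : NumberField.ComplexEmbedding.IsReal ((W : E →+* ℂ).comp (algebraMap L E)) := by
    rw [NumberField.ComplexEmbedding.isReal_iff]
    ext t
    change starRingEnd ℂ (W (algebraMap L E t)) = W (algebraMap L E t)
    rw [← hc1, H.σL]
  have hw : ∀ t : L, ((hreal.embedding t : ℝ) : ℂ) = W (algebraMap L E t) :=
    fun t => NumberField.ComplexEmbedding.IsReal.coe_embedding_apply hreal t
  have hwk : ∀ t : k, ((hreal.embedding (algebraMap k L t) : ℝ) : ℂ) = algebraMap k ℂ t := by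
    intro t
    rw [hw, ← IsScalarTower.algebraMap_apply, AlgHom.commutes]
  have hα2 : W α * W α = algebraMap k ℂ a := by
    rw [← map_mul, H.α2, AlgHom.commutes]
  have hα : starRingEnd ℂ (W α) = -W α := by rw [← hc1, H.σα, map_neg]
  have hα0 : W α ≠ 0 := by
    intro h0
    rw [h0, zero_mul] at hα2
    exact (map_ne_zero (algebraMap k ℂ)).2 a.ne_zero hα2.symm
  have ha : hreal.embedding (algebraMap k L a) < 0 := by
    have h1 : ((hreal.embedding (algebraMap k L a) : ℝ) : ℂ) = -(normSq (W α) : ℂ) := by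
      rw [hwk, ← hα2, normSq_eq_conj_mul_self, hα]
      ring
    have h2 : hreal.embedding (algebraMap k L a) = -normSq (W α) := by exact_mod_cast h1
    rw [h2]
    exact neg_neg_of_pos (normSq_pos.2 hα0)
  obtain ⟨hb0, hc0⟩ := hc _ ha
  -- the real values
  have e0 : W (algebraMap L E q) = ((W (algebraMap L E q)).re : ℂ) := by
    rw [← hw, ofReal_re]
  have e1 : W (ρ (algebraMap L E q)) = ((W (ρ (algebraMap L E q))).re : ℂ) := by
    rw [H.ρL', ← hw, ofReal_re]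
  obtain ⟨R, P, β, γ, h, h1, h2⟩ := exists_RP (a := a) (b := b) (c := c) hα2 hα
    (hwk b).symm (hwk c).symm hb0 hc0 hq hq'
  -- the conjugation
  have hconj : ∀ t : k, starRingEnd ℂ (algebraMap k ℂ t) = algebraMap k ℂ t := fun t => by
    rw [← hwk, conj_ofReal]
  obtain ⟨s, hs⟩ : ∃ s : ℂ ≃ₐ[k] ℂ, ∀ x, s x = starRingEnd ℂ x :=
    ⟨{ (starRingAut : ℂ ≃+* ℂ) with commutes' := hconj }, fun _ => rfl⟩
  have hJ : ∀ x : OctL ℂ a b c, JW W ρ α q x =
      Jq s (W α) ((-(R ^ 2) / P ^ 2 : ℝ) : ℂ) ((P ^ 4 : ℝ) : ℂ) x := by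
    intro x
    have e3 : (cj x).fst = qmap s x.fst := by
      ext
      · exact (hs _).symm
      · exact (hs _).symm
      · exact (hs _).symm
      · exact (hs _).symm
    have e4 : (cj x).snd = qmap s x.snd := by
      ext
      · exact (hs _).symm
      · exact (hs _).symm
      · exact (hs _).symm
      · exact (hs _).symm
    rw [JW, Jq, e3, e4, h1, h2, ← e0, ← e1]
  have hr : (Real.sqrt (W (algebraMap L E q * (algebraMap L E q *
      ρ (algebraMap L E q)))).re : ℂ) = ((R ^ 2 : ℝ) : ℂ) := by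
    have e5 : (W (algebraMap L E q * (algebraMap L E q * ρ (algebraMap L E q)))).re =
        (R ^ 2) ^ 2 := by
      rw [map_mul, map_mul, e0, e1, ← h1, ← h2, ← ofReal_mul, ← ofReal_mul, ofReal_re]
      have := h.P0.ne'
      field_simp
    rw [e5, Real.sqrt_sq (pow_pos h.R0 2).le]
  have hVR : ∀ x : OctL ℂ a b c, x ∈ VR W ρ α q ↔
      Jq s (W α) ((-(R ^ 2) / P ^ 2 : ℝ) : ℂ) ((P ^ 4 : ℝ) : ℂ) x = ((R ^ 2 : ℝ) : ℂ) • x := by
    intro x
    rw [VR, Set.mem_setOf_eq, hJ, hr]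
  refine ⟨eb a b c (W α) R P β γ, fun i => ?_, h.bil_eb, fun y hy => ?_, fun y => ?_,
    fun i hi => eb_snd hi, fun i hi => eb_fst hi, fun i hi => eb_mid hi⟩
  · rw [hVR, eb, h.Jq_Psi hs]
    congr 2
    funext j
    split_ifs <;> simp
  · rw [hVR] at hy
    have hR : ((R ^ 2 : ℝ) : ℂ) ≠ 0 := by exact_mod_cast (pow_pos h.R0 2).ne'
    obtain ⟨z, rfl⟩ : ∃ z, y = Psi a b c (W α) R P β γ z := ⟨_, (h.Psi_Psi' y).symm⟩
    rw [h.Jq_Psi hs, ← Psi_smul, ← Psi_smul] at hy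
    have h5 := congrArg (Psi' (W α) R P β γ) hy
    rw [h.Psi'_Psi, h.Psi'_Psi] at h5
    refine ⟨fun i => (z i).re, ?_⟩
    rw [Psi_eq_sum]
    refine Finset.sum_congr rfl fun i _ => ?_
    have h6 := congrFun h5 i
    simp only [Pi.smul_apply, smul_eq_mul] at h6
    rw [conj_eq_iff_re.1 (mul_left_cancel₀ hR h6)]
  · exact ⟨Psi' (W α) R P β γ y, by rw [← Psi_eq_sum, h.Psi_Psi']⟩

end main

end Vale.Agent.P011.D4Z
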