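import Vale.Agent.P011.D4Z.H64.Basis
import Vale.Agent.P011.D4Z.H342.Elim

/-!
Block D4Z (helper64): linear maps of the octonion algebra over `ℂ` which keep the norm and the real
structure, in real coordinates.
-/

open Complex

set_option linter.unusedSectionVars false

namespace Vale.Agent.P011.D4Z

open Vale.Agent.P011.MPQ Vale.Agent.P011.D4 Vale.Agent.P011.D4.Oct Vale.Agent.P011.D4X

variable {k : Type} [Field k] [Algebra k ℂ] {a b c : kˣ} {α : ℂ} {R P β γ : ℝ}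

/-- The octonion with the given real coordinates. -/
noncomputable def PsiR (a b c : kˣ) (α : ℂ) (R P β γ : ℝ) (x : Fin 8 → ℝ) : OctL ℂ a b c :=
  Psi a b c α R P β γ fun i => (x i : ℂ)

theorem PsiR_add (x y : Fin 8 → ℝ) :
    PsiR a b c α R P β γ (x + y) = PsiR a b c α R P β γ x + PsiR a b c α R P β γ y := by
  rw [PsiR, PsiR, PsiR, ← Psi_add]
  congr 1
  funext i
  simp

theorem PsiR_smul (t : ℝ) (x : Fin 8 → ℝ) :
    PsiR a b c α R P β γ (t • x) = (t : ℂ) • PsiR a b c α R P β γ x := by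
  rw [PsiR, PsiR, ← Psi_smul]
  congr 1
  funext i
  simp

theorem Psi_zero : Psi a b c α R P β γ 0 = 0 := by
  have h := Psi_smul (a := a) (b := b) (c := c) (α := α) (R := R) (P := P) (β := β) (γ := γ)
    0 (0 : Fin 8 → ℂ)
  rwa [zero_smul, zero_smul] at h

theorem RP.Psi_inj (h : RP a b c α R P β γ) {x y : Fin 8 → ℂ}
    (hxy : Psi a b c α R P β γ x = Psi a b c α R P β γ y) : x = y := by
  rw [← h.Psi'_Psi x, hxy, h.Psi'_Psi]

theorem RP.PsiR_inj (h : RP a b c α R P β γ) {x y : Fin 8 → ℝ}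
    (hxy : PsiR a b c α R P β γ x = PsiR a b c α R P β γ y) : x = y := by
  have h1 := h.Psi_inj hxy
  funext i
  have h2 := congrFun h1 i
  exact_mod_cast h2

theorem eta8_eq (x : Fin 8 → ℝ) : eta8 x = El.bf x x := by
  simp only [eta8, El.bf, El.sg, Fin.sum_univ_eight, Matrix.cons_val]
  ring

theorem RP.norm_PsiR (h : RP a b c α R P β γ) (x : Fin 8 → ℝ) :
    Oct.norm (PsiR a b c α R P β γ x) = ((El.bf x x : ℝ) : ℂ) := by
  rw [PsiR, h.norm_Psi, ← eta8_eq, eta8, eta8]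
  push_cast
  rfl

theorem bf_add_add (x y : Fin 8 → ℝ) :
    El.bf (x + y) (x + y) = El.bf x x + El.bf y y + 2 * El.bf x y := by
  simp only [El.bf, Fin.sum_univ_eight, Pi.add_apply]
  ring

theorem RP.bil_PsiR (h : RP a b c α R P β γ) (x y : Fin 8 → ℝ) :
    Oct.bil (PsiR a b c α R P β γ x) (PsiR a b c α R P β γ y) = ((2 * El.bf x y : ℝ) : ℂ) := by
  rw [Oct.bil, ← PsiR_add, h.norm_PsiR, h.norm_PsiR, h.norm_PsiR, bf_add_add]
  push_cast
  ring

/-- The real octonions. -/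
theorem RP.real_iff (h : RP a b c α R P β γ) {σ : ℂ ≃ₐ[k] ℂ} (hσ : ∀ x, σ x = starRingEnd ℂ x)
    {y : OctL ℂ a b c} :
    Jq σ α ((-(R ^ 2) / P ^ 2 : ℝ) : ℂ) ((P ^ 4 : ℝ) : ℂ) y = ((R ^ 2 : ℝ) : ℂ) • y ↔
      ∃ x : Fin 8 → ℝ, y = PsiR a b c α R P β γ x := by
  have hR : ((R ^ 2 : ℝ) : ℂ) ≠ 0 := by exact_mod_cast (pow_pos h.R0 2).ne'
  constructor
  · intro hy
    obtain ⟨z, rfl⟩ : ∃ z, y = Psi a b c α R P β γ z := ⟨_, (h.Psi_Psi' y).symm⟩
    rw [h.Jq_Psi hσ, ← Psi_smul, ← Psi_smul] at hy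
    have h1 := h.Psi_inj hy
    refine ⟨fun i => (z i).re, ?_⟩
    rw [PsiR]
    congr 1
    funext i
    have h2 := congrFun h1 i
    simp only [Pi.smul_apply, smul_eq_mul] at h2
    exact (conj_eq_iff_re.1 (mul_left_cancel₀ hR h2)).symm
  · rintro ⟨x, rfl⟩
    rw [PsiR, h.Jq_Psi hσ]
    simp only [conj_ofReal]

/-- The real coordinates of a linear map. -/
noncomputable def col (α : ℂ) (R P β γ : ℝ) (G : OctL ℂ a b c → OctL ℂ a b c) (j : Fin 8) :
    Fin 8 → ℝ :=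
  fun i => (Psi' α R P β γ (G (PsiR a b c α R P β γ (Pi.single j 1))) i).re

section lin

variable (h : RP a b c α R P β γ) {σ : ℂ ≃ₐ[k] ℂ} (hσ : ∀ x, σ x = starRingEnd ℂ x)
  {G : OctL ℂ a b c →ₗ[ℂ] OctL ℂ a b c}
  (hJ : ∀ y, G (Jq σ α ((-(R ^ 2) / P ^ 2 : ℝ) : ℂ) ((P ^ 4 : ℝ) : ℂ) y) =
    Jq σ α ((-(R ^ 2) / P ^ 2 : ℝ) : ℂ) ((P ^ 4 : ℝ) : ℂ) (G y))

include h hσ hJ

theorem RP.exists_col (x : Fin 8 → ℝ) : ∃ y : Fin 8 → ℝ,
    G (PsiR a b c α R P β γ x) = PsiR a b c α R P β γ y := by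
  apply (h.real_iff hσ).1
  rw [← hJ, (h.real_iff hσ).2 ⟨x, rfl⟩, map_smul]

/-- The image of a vector of the basis. -/
theorem RP.col_spec (j : Fin 8) : G (PsiR a b c α R P β γ (Pi.single j 1)) =
    PsiR a b c α R P β γ (col α R P β γ G j) := by
  obtain ⟨y, hy⟩ := h.exists_col hσ hJ (Pi.single j 1)
  have h1 : col α R P β γ G j = y := by
    funext i
    rw [col, hy, PsiR, h.Psi'_Psi, ofReal_re]
  rw [h1, hy]

theorem RP.col_sum (x : Fin 8 → ℝ) : G (PsiR a b c α R P β γ x) =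
    PsiR a b c α R P β γ (∑ j, x j • col α R P β γ G j) := by
  have e1 : ∀ (s : Finset (Fin 8)) (f : Fin 8 → Fin 8 → ℝ),
      PsiR a b c α R P β γ (∑ j ∈ s, f j) = ∑ j ∈ s, PsiR a b c α R P β γ (f j) := by
    intro s f
    induction s using Finset.induction_on with
    | empty =>
      rw [Finset.sum_empty, Finset.sum_empty]
      have h3 := PsiR_smul (a := a) (b := b) (c := c) (α := α) (R := R) (P := P) (β := β) (γ := γ)
        0 (0 : Fin 8 → ℝ)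
      rwa [zero_smul, ofReal_zero, zero_smul] at h3
    | insert i s hi ih => rw [Finset.sum_insert hi, Finset.sum_insert hi, PsiR_add, ih]
  have e2 : x = ∑ j, x j • (Pi.single j 1 : Fin 8 → ℝ) := by
    funext i
    simp [Finset.sum_apply, Pi.single_apply]
  conv_lhs => rw [e2, e1, map_sum]
  rw [e1]
  refine Finset.sum_congr rfl fun j _ => ?_
  rw [PsiR_smul, map_smul, h.col_spec hσ hJ, PsiR_smul]

/-- The columns form an orthogonal basis. -/
theorem RP.col_orth (hN : ∀ y, Oct.norm (G y) = Oct.norm y) (i j : Fin 8) :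
    El.bf (col α R P β γ G i) (col α R P β γ G j) = if i = j then El.sg i else 0 := by
  have e0 : ∀ x y, Oct.bil (G x) (G y) = Oct.bil x y := fun x y => by
    rw [Oct.bil, Oct.bil, ← map_add, hN, hN, hN]
  have h1 := e0 (PsiR a b c α R P β γ (Pi.single i 1)) (PsiR a b c α R P β γ (Pi.single j 1))
  rw [h.col_spec hσ hJ, h.col_spec hσ hJ, h.bil_PsiR, h.bil_PsiR] at h1
  have h2 : El.bf (col α R P β γ G i) (col α R P β γ G j) =
      El.bf (Pi.single i 1) (Pi.single j 1) := by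
    have : (2 * El.bf (col α R P β γ G i) (col α R P β γ G j) : ℝ) =
        2 * El.bf (Pi.single i 1) (Pi.single j 1) := by exact_mod_cast h1
    linarith
  rw [h2, El.bf]
  by_cases hij : i = j
  · subst hij
    simp [Pi.single_apply]
  · rw [if_neg hij]
    apply Finset.sum_eq_zero
    intro l _
    by_cases hl : l = i
    · subst hl
      simp [Pi.single_apply, hij]
    · simp [Pi.single_apply, hl]

end lin

theorem RP.refl_PsiR (h : RP a b c α R P β γ) (e x : Fin 8 → ℝ) :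
    refl (PsiR a b c α R P β γ e) (PsiR a b c α R P β γ x) =
      PsiR a b c α R P β γ (El.refl e x) := by
  rw [refl, h.bil_PsiR, h.norm_PsiR, ← ofReal_div, ← PsiR_smul, El.refl, sub_eq_add_neg,
    sub_eq_add_neg, PsiR_add]
  congr 1
  have h1 := PsiR_smul (a := a) (b := b) (c := c) (α := α) (R := R) (P := P) (β := β) (γ := γ)
    (-1) ((2 * El.bf x e / El.bf e e) • e)
  rw [neg_one_smul, ofReal_neg, ofReal_one, neg_one_smul] at h1
  exact h1.symm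

/-- The coordinates of the product with two reflections. -/
theorem RP.col_comp (h : RP a b c α R P β γ) {σ : ℂ ≃ₐ[k] ℂ} (hσ : ∀ x, σ x = starRingEnd ℂ x)
    {G : OctL ℂ a b c →ₗ[ℂ] OctL ℂ a b c}
    (hJ : ∀ y, G (Jq σ α ((-(R ^ 2) / P ^ 2 : ℝ) : ℂ) ((P ^ 4 : ℝ) : ℂ) y) =
      Jq σ α ((-(R ^ 2) / P ^ 2 : ℝ) : ℂ) ((P ^ 4 : ℝ) : ℂ) (G y))
    {X : OctL ℂ a b c → OctL ℂ a b c} {e e' : Fin 8 → ℝ}
    (hX : ∀ y, X y = refl (PsiR a b c α R P β γ e') (refl (PsiR a b c α R P β γ e) y)) :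
    col α R P β γ (fun y => X (G y)) = fun j => El.refl e' (El.refl e (col α R P β γ G j)) := by
  funext j i
  rw [col, h.col_spec hσ hJ, hX, h.refl_PsiR, h.refl_PsiR, PsiR, h.Psi'_Psi, ofReal_re]

/-- A linear map is determined by its coordinates. -/
theorem RP.eq_of_col (h : RP a b c α R P β γ) {σ : ℂ ≃ₐ[k] ℂ} (hσ : ∀ x, σ x = starRingEnd ℂ x)
    {G H : OctL ℂ a b c →ₗ[ℂ] OctL ℂ a b c}
    (hG : ∀ y, G (Jq σ α ((-(R ^ 2) / P ^ 2 : ℝ) : ℂ) ((P ^ 4 : ℝ) : ℂ) y) =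
      Jq σ α ((-(R ^ 2) / P ^ 2 : ℝ) : ℂ) ((P ^ 4 : ℝ) : ℂ) (G y))
    (hH : ∀ y, H (Jq σ α ((-(R ^ 2) / P ^ 2 : ℝ) : ℂ) ((P ^ 4 : ℝ) : ℂ) y) =
      Jq σ α ((-(R ^ 2) / P ^ 2 : ℝ) : ℂ) ((P ^ 4 : ℝ) : ℂ) (H y))
    (hGH : col α R P β γ G = col α R P β γ H) : G = H := by
  ext1 y
  have h1 : ∀ x : Fin 8 → ℝ, G (PsiR a b c α R P β γ x) = H (PsiR a b c α R P β γ x) := by
    intro x
    rw [h.col_sum hσ hG, h.col_sum hσ hH, hGH]
  obtain ⟨z, rfl⟩ : ∃ z, y = Psi a b c α R P β γ z := ⟨_, (h.Psi_Psi' y).symm⟩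
  have e1 : Psi a b c α R P β γ z = PsiR a b c α R P β γ (fun i => (z i).re) +
      I • PsiR a b c α R P β γ (fun i => (z i).im) := by
    rw [PsiR, PsiR, ← Psi_smul, ← Psi_add]
    congr 1
    funext i
    simp only [Pi.add_apply, Pi.smul_apply, smul_eq_mul]
    rw [mul_comm I, re_add_im]
  rw [e1, map_add, map_add, map_smul, map_smul, h1, h1]

end Vale.Agent.P011.D4Z
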